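import Vale.Agent.P197.Full.Final
import Vale.Agent.P197.Full.CutPacking

/-!
# P197: the tensor square of the staircase Specht module contains every irreducible
-/

namespace Vale.Agent.Results.P197.SaxlConjecture

open Vale.Agent.P197

/-- Every irreducible complex representation of the symmetric group on the boxes of the staircase
embeds in the tensor square of the staircase Specht module; every Specht module occurs in it. -/
theorem result (m : ℕ) :
    (∀ (W : Type) [AddCommGroup W] [Module ℂ W] (σ : Representation ℂ (Specht.G m) W),
      (∀ U : Submodule ℂ W, (∀ g, ∀ x ∈ U, σ g x ∈ U) → U = ⊥ ∨ U = ⊤) → Embeds σ) ∧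
    (∀ (nu : YoungDiagram) (L : Specht.Box m → ℕ × ℕ),
      Strip.IsLabelling L nu → Occurs (Strip.spechtRep L)) :=
  Full.saxl_of_packing m (Full.good_stair m)

end Vale.Agent.Results.P197.SaxlConjecture
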